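import Vale.Agent.P031.PNT.Psi
import Vale.Agent.P031.Statements

/-!
The prime number theorem for `θ`, `π` and intervals (x, c x].
-/

open Filter Topology Asymptotics
open scoped Nat.Prime

noncomputable section

namespace Vale.Agent.P031.PNT

theorem tendsto_theta_div : Tendsto (fun x => Chebyshev.theta x / x) atTop (𝓝 1) := by
  have h : Tendsto (fun x => (Chebyshev.psi x - Chebyshev.theta x) / x) atTop (𝓝 0) := by
    have hs : Real.sqrt =o[atTop] (id : ℝ → ℝ) := by
      refine (isLittleO_iff_tendsto' ?_).2 ?_
      · filter_upwards [eventually_gt_atTop 0] with x hx h0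
        exact absurd h0 (ne_of_gt hx)
      · refine (Real.tendsto_sqrt_atTop.inv_tendsto_atTop).congr' ?_
        filter_upwards [eventually_gt_atTop 0] with x hx
        simp only [Pi.inv_apply, id]
        rw [Real.sqrt_div_self', one_div]
    exact (Chebyshev.isBigO_psi_sub_theta_sqrt.trans_isLittleO hs).tendsto_div_nhds_zero
  have := tendsto_psi_div.sub h
  rw [sub_zero] at this
  exact this.congr fun x => by ring

/-- `π(x) log x / x → 1`. -/
theorem tendsto_primeCounting : Tendsto (fun x : ℝ => (π ⌊x⌋₊ : ℝ) * Real.log x / x) atTop (𝓝 1) := by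
  have h := (Chebyshev.primeCounting_sub_theta_div_log_isBigO.trans_isLittleO
    (k := fun x => x / Real.log x) ?_).tendsto_div_nhds_zero
  · have h2 := h.add tendsto_theta_div
    rw [zero_add] at h2
    refine h2.congr' ?_
    filter_upwards [eventually_gt_atTop 1] with x hx
    have := Real.log_pos hx
    have : x ≠ 0 := by linarith
    field_simp
    ring
  · refine isLittleO_iff_tendsto' ?_ |>.mpr ?_
    · filter_upwards [eventually_gt_atTop 1] with x hx h0
      have := Real.log_pos hx
      exact absurd h0 (by positivity)
    · refine Tendsto.congr' (f₁ := fun x => (Real.log x)⁻¹) ?_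
        Real.tendsto_log_atTop.inv_tendsto_atTop
      filter_upwards [eventually_gt_atTop 1] with x hx
      have := Real.log_pos hx
      have : x ≠ 0 := by linarith
      field_simp

/-- `π(x) ~ x / log x`. -/
theorem primeCounting_isEquivalent :
    (fun x : ℝ => (π ⌊x⌋₊ : ℝ)) ~[atTop] fun x => x / Real.log x := by
  refine isEquivalent_of_tendsto_one (tendsto_primeCounting.congr' ?_)
  filter_upwards [eventually_gt_atTop 1] with x hx
  simp only [Pi.div_apply]
  rw [div_div_eq_mul_div]

/-- `π(c x) - π(x) ~ (c - 1) x / log x` for fixed `c > 0`, as a limit. -/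
theorem tendsto_primeCounting_interval {c : ℝ} (hc : 0 < c) :
    Tendsto (fun x : ℝ => ((π ⌊c * x⌋₊ : ℝ) - π ⌊x⌋₊) * Real.log x / x) atTop (𝓝 (c - 1)) := by
  have hcx : Tendsto (fun x : ℝ => c * x) atTop atTop := tendsto_id.const_mul_atTop hc
  have hl : Tendsto (fun x : ℝ => c * (Real.log x / Real.log (c * x))) atTop (𝓝 c) := by
    have h1 : Tendsto (fun x : ℝ => (1 + Real.log c / Real.log x)⁻¹) atTop (𝓝 1) := by
      have := ((tendsto_const_nhds (x := Real.log c)).div_atTop Real.tendsto_log_atTop).const_add 1
      rw [add_zero] at this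
      simpa using this.inv₀ one_ne_zero
    have h2 := h1.const_mul c
    rw [mul_one] at h2
    refine h2.congr' ?_
    filter_upwards [eventually_gt_atTop 1, hcx.eventually (eventually_gt_atTop 1)] with x hx hx'
    have := Real.log_pos hx
    have := Real.log_pos hx'
    rw [Real.log_mul hc.ne' (by linarith)] at this ⊢
    have hne : Real.log x + Real.log c ≠ 0 := by linarith
    field_simp
    ring
  have h := ((tendsto_primeCounting.comp hcx).mul hl).sub tendsto_primeCounting
  rw [one_mul] at h
  refine h.congr' ?_
  filter_upwards [eventually_gt_atTop 1, hcx.eventually (eventually_gt_atTop 1)] with x hx hx'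
  have := Real.log_pos hx'
  have : x ≠ 0 := by linarith
  simp only [Function.comp]
  field_simp

/-- The prime number theorem in ratio form. -/
theorem pnt_ratio : _root_.P031.PNTStatement := by
  intro c hc
  have h := ((tendsto_primeCounting_interval hc).div tendsto_primeCounting one_ne_zero).add_const 1
  rw [div_one, sub_add_cancel] at h
  refine h.congr' ?_
  filter_upwards [eventually_gt_atTop 1, eventually_ge_atTop 2] with y hy hy2
  have hl := Real.log_pos hy
  have hp : (0 : ℝ) < π ⌊y⌋₊ := by
    have : 2 ≤ ⌊y⌋₊ := Nat.le_floor (by exact_mod_cast hy2)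
    exact_mod_cast Nat.pos_of_ne_zero fun h0 => by
      have := Nat.monotone_primeCounting this
      rw [h0] at this
      simp [Nat.primeCounting, Nat.primeCounting', Nat.count_succ] at this
      exact absurd this (by decide)
  have : y ≠ 0 := by linarith
  simp only [Pi.div_apply]
  field_simp
  ring

end Vale.Agent.P031.PNT
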