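import Vale.Agent.P031.PNT.Newman

/-!
`ψ x ~ x`, `π x ~ x / log x`.
-/

open Complex Set Filter Topology MeasureTheory intervalIntegral
open scoped Real Interval ArithmeticFunction
open ArithmeticFunction (vonMangoldt)

noncomputable section

namespace Vale.Agent.P031.PNT

/-- The function (s - 1) ζ(s), extended by `1` at `1`. -/
def zetaMul (s : ℂ) : ℂ := Function.update (fun s => (s - 1) * riemannZeta s) 1 1 s

lemma differentiable_zetaMul : Differentiable ℂ zetaMul := by
  have h : DifferentiableOn ℂ zetaMul univ := by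
    rw [← Complex.differentiableOn_compl_singleton_and_continuousAt_iff (c := 1) univ_mem]
    refine ⟨fun s hs => ?_, ?_⟩
    · have hs1 : s ≠ 1 := by simpa using hs
      have hd : DifferentiableAt ℂ (fun s : ℂ => (s - 1) * riemannZeta s) s :=
        (by fun_prop : DifferentiableAt ℂ (fun s : ℂ => s - 1) s).mul
          (differentiableAt_riemannZeta hs1)
      refine (hd.congr_of_eventuallyEq ?_).differentiableWithinAt
      filter_upwards [isOpen_ne.mem_nhds hs1] with y hy
      exact Function.update_of_ne hy _ _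
    · unfold zetaMul
      exact continuousAt_update_same.2 riemannZeta_residue_one
  exact fun s => h.differentiableAt univ_mem

lemma zetaMul_ne_zero {s : ℂ} (hs : 1 ≤ s.re) : zetaMul s ≠ 0 := by
  rcases eq_or_ne s 1 with rfl | h
  · simp [zetaMul]
  · rw [zetaMul, Function.update_of_ne h]
    exact mul_ne_zero (sub_ne_zero.2 h) (riemannZeta_ne_zero_of_one_le_re hs)

lemma neg_logDeriv_zetaMul {s : ℂ} (hs : 1 < s.re) :
    -deriv zetaMul s / zetaMul s = LSeries (fun n => (Λ n : ℂ)) s - 1 / (s - 1) := by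
  have h1 : s ≠ 1 := fun h => by simp [h] at hs
  have he : zetaMul =ᶠ[𝓝 s] fun s => (s - 1) * riemannZeta s := by
    filter_upwards [isOpen_ne.mem_nhds h1] with y hy
    exact Function.update_of_ne hy _ _
  have hd : HasDerivAt (fun s : ℂ => (s - 1) * riemannZeta s)
      (1 * riemannZeta s + (s - 1) * deriv riemannZeta s) s :=
    ((hasDerivAt_id s).sub_const 1).mul (differentiableAt_riemannZeta h1).hasDerivAt
  rw [he.deriv_eq, hd.deriv, he.eq_of_nhds,
    ArithmeticFunction.LSeries_vonMangoldt_eq_deriv_riemannZeta_div hs]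
  have := riemannZeta_ne_zero_of_one_le_re hs.le
  have := sub_ne_zero.2 h1
  field_simp
  ring

/-- error term -/
def phi (t : ℝ) : ℝ := Chebyshev.psi t - t

lemma measurable_phi : Measurable phi :=
  Chebyshev.psi_mono.measurable.sub measurable_id

lemma abs_phi_le {t : ℝ} (ht : 0 ≤ t) : |phi t| ≤ (Real.log 4 + 4 + 1) * t := by
  have h1 := Chebyshev.psi_le_const_mul_self ht
  have h2 := Chebyshev.psi_nonneg t
  have h3 : 0 ≤ Real.log 4 := Real.log_nonneg (by norm_num)
  rw [phi, abs_le]
  constructor <;> nlinarith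

lemma transform_eq {z : ℂ} (hz : 0 < z.re) :
    ∫ t in Ioi 1, (phi t : ℂ) * (t : ℂ) ^ (-(2 : ℂ) - z) =
      (-deriv zetaMul (z + 1) / zetaMul (z + 1) - 1) / (z + 1) := by
  have hs : 1 < (z + 1).re := by simp; linarith
  have hsum : ∀ n : ℕ, ∑ k ∈ Finset.Icc 1 n, Λ k = Chebyshev.psi n := by
    intro n
    rw [Chebyshev.psi_eq_sum_Icc, Nat.floor_natCast, ← Finset.add_sum_Ioc_eq_sum_Icc (Nat.zero_le n)]
    simp only [ArithmeticFunction.map_zero, zero_add]
    rfl
  have hO : (fun n : ℕ => ∑ k ∈ Finset.Icc 1 n, Λ k) =O[atTop] fun n : ℕ => (n : ℝ) ^ (1 : ℝ) := by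
    refine Asymptotics.IsBigO.of_bound (Real.log 4 + 4) (Eventually.of_forall fun n => ?_)
    rw [hsum, Real.rpow_one, Real.norm_eq_abs, Real.norm_eq_abs, abs_of_nonneg (Chebyshev.psi_nonneg _),
      Nat.abs_cast]
    exact Chebyshev.psi_le_const_mul_self (Nat.cast_nonneg n)
  have hL := LSeries_eq_mul_integral_of_nonneg (fun n => Λ n) zero_le_one hs hO
    (fun n => ArithmeticFunction.vonMangoldt_nonneg)
  have hps : ∀ t : ℝ, (∑ k ∈ Finset.Icc 1 ⌊t⌋₊, (Λ k : ℂ)) = (Chebyshev.psi t : ℂ) := by
    intro t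
    rw [← Complex.ofReal_sum, hsum, ← Chebyshev.psi_eq_psi_coe_floor]
  simp only [hps] at hL
  have he : -(z + 1 + 1) = -(2 : ℂ) - z := by ring
  rw [he] at hL
  have hexp : (-(1 : ℂ) - z).re < -1 := by simp; linarith
  have hi2 : IntegrableOn (fun t : ℝ => (t : ℂ) ^ (-(1 : ℂ) - z)) (Ioi 1) :=
    integrableOn_Ioi_cpow_of_lt hexp one_pos
  have hi1 := integrableOn_term_Ioi measurable_phi (fun t ht => abs_phi_le (by linarith)) le_rfl hz
  have hsplit : ∫ t in Ioi (1 : ℝ), (Chebyshev.psi t : ℂ) * (t : ℂ) ^ (-(2 : ℂ) - z) =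
      (∫ t in Ioi 1, (phi t : ℂ) * (t : ℂ) ^ (-(2 : ℂ) - z)) +
        ∫ t in Ioi (1 : ℝ), (t : ℂ) ^ (-(1 : ℂ) - z) := by
    rw [← MeasureTheory.integral_add hi1 hi2]
    refine setIntegral_congr_fun measurableSet_Ioi fun t ht => ?_
    have ht0 : (t : ℂ) ≠ 0 := by exact_mod_cast (by linarith [mem_Ioi.1 ht] : (0:ℝ) < t).ne'
    have e1 : (t : ℂ) ^ (-(1 : ℂ) - z) = t * (t : ℂ) ^ (-(2 : ℂ) - z) := by
      conv_rhs => arg 1; rw [← cpow_one (t : ℂ)]
      rw [← cpow_add _ _ ht0]; ring_nf
    simp only [phi, e1]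
    push_cast
    ring
  rw [hsplit, integral_Ioi_cpow_of_lt hexp one_pos] at hL
  have hz0 : z ≠ 0 := fun h => by simp [h] at hz
  have hz1 : z + 1 ≠ 0 := fun h => by rw [h] at hs; simp at hs; linarith
  rw [Complex.ofReal_one, one_cpow, show (-(1 : ℂ) - z + 1) = -z by ring] at hL
  rw [neg_logDeriv_zetaMul hs, add_sub_cancel_right, hL]
  field_simp
  ring

/-- `∫_1^T (ψ t - t)/t^2` -/
def G (T : ℝ) : ℝ := ∫ t in Ioc 1 T, phi t / t ^ 2

lemma trunc_phi_zero (T : ℝ) : trunc phi T 0 = (G T : ℂ) := by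
  rw [trunc, G, ← integral_complex_ofReal]
  refine setIntegral_congr_fun measurableSet_Ioc fun t ht => ?_
  have : (-(2 : ℂ) - 0) = ((-2 : ℤ) : ℂ) := by norm_num
  rw [this, cpow_intCast]
  push_cast
  rw [zpow_neg, div_eq_mul_inv, zpow_ofNat]

lemma integrableOn_G {a b : ℝ} (ha : 1 ≤ a) : IntegrableOn (fun t => phi t / t ^ 2) (Ioc a b) := by
  rcases le_or_gt b a with h | h
  · rw [Ioc_eq_empty (not_lt.2 h)]; exact integrableOn_empty
  refine Integrable.mono' (g := fun _ => Real.log 4 + 4 + 1) (integrable_const _)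
    ((measurable_phi.div (measurable_id.pow_const 2)).aestronglyMeasurable) ?_
  filter_upwards [ae_restrict_mem measurableSet_Ioc] with t ht
  have ht1 : 1 ≤ t := ha.trans ht.1.le
  rw [Real.norm_eq_abs, abs_div, abs_of_nonneg (sq_nonneg t), div_le_iff₀ (by positivity)]
  have hc : 0 ≤ Real.log 4 + 4 + 1 := by positivity
  calc |phi t| ≤ (Real.log 4 + 4 + 1) * t := abs_phi_le (by linarith)
    _ ≤ (Real.log 4 + 4 + 1) * t ^ 2 := by gcongr; nlinarith

lemma G_sub {a b : ℝ} (ha : 1 ≤ a) (hab : a ≤ b) :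
    G b - G a = ∫ t in a..b, phi t / t ^ 2 := by
  rw [intervalIntegral.integral_of_le hab, G, G, ← Ioc_union_Ioc_eq_Ioc ha hab,
    setIntegral_union (Ioc_disjoint_Ioc_of_le le_rfl) measurableSet_Ioc (integrableOn_G le_rfl)
      (integrableOn_G ha), add_sub_cancel_left]

lemma tendsto_G : ∃ l, Tendsto G atTop (𝓝 l) := by
  set U : Set ℂ := {z | z + 1 ≠ 0 ∧ zetaMul (z + 1) ≠ 0} with hU
  have hUo : IsOpen U := (isOpen_ne.preimage (by fun_prop : Continuous fun z : ℂ => z + 1)).inter
    (isOpen_ne.preimage (differentiable_zetaMul.continuous.comp (by fun_prop : Continuous fun z : ℂ => z + 1)))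
  have hsub : {z : ℂ | 0 ≤ z.re} ⊆ U := fun z hz => by
    have h1 : 1 ≤ (z + 1).re := by simp; exact hz
    exact ⟨fun h => by rw [h] at h1; simp at h1; linarith, zetaMul_ne_zero h1⟩
  have hd : DifferentiableOn ℂ
      (fun z => (-deriv zetaMul (z + 1) / zetaMul (z + 1) - 1) / (z + 1)) U := by
    intro z hz
    have h0 : DifferentiableAt ℂ (fun z : ℂ => z + 1) z := by fun_prop
    have h2 : DifferentiableAt ℂ (deriv zetaMul) (z + 1) :=
      (differentiable_zetaMul.differentiableOn.deriv isOpen_univ).differentiableAt univ_mem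
    exact ((((h2.comp z h0).neg).div ((differentiable_zetaMul _).comp z h0) hz.2).sub_const 1
      |>.div h0 hz.1).differentiableWithinAt
  have h := newman measurable_phi (by positivity : (0:ℝ) ≤ Real.log 4 + 4 + 1)
    (fun t ht => abs_phi_le (by linarith)) hUo hsub hd fun z hz => transform_eq hz
  simp only [trunc_phi_zero] at h
  refine ⟨_, ((Complex.continuous_re.tendsto _).comp h).congr fun T => ?_⟩
  simp

/-- The prime number theorem for `ψ`. -/
theorem tendsto_psi_div : Tendsto (fun x => Chebyshev.psi x / x) atTop (𝓝 1) := by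
  obtain ⟨l, hl⟩ := tendsto_G
  rw [tendsto_order]
  constructor
  · intro a ha
    obtain ⟨m, hm0, ham, hm1⟩ : ∃ m, 0 < m ∧ a < m ∧ m < 1 := by
      refine ⟨max ((a + 1) / 2) (1 / 2), ?_, ?_, ?_⟩
      · exact lt_of_lt_of_le one_half_pos (le_max_right _ _)
      · exact lt_of_lt_of_le (by linarith) (le_max_left _ _)
      · exact max_lt (by linarith) (by norm_num)
    have hd : Tendsto (fun x => G x - G (m * x)) atTop (𝓝 0) := by
      simpa using hl.sub (hl.comp (tendsto_id.const_mul_atTop hm0))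
    filter_upwards [hd.eventually (eventually_gt_nhds (by nlinarith : -((1 - m) ^ 2 / 2) < 0)),
      eventually_ge_atTop (1 / m), eventually_gt_atTop 0] with x hx hxm hx0
    have hmx : 1 ≤ m * x := by rwa [div_le_iff₀ hm0, mul_comm] at hxm
    have hmx' : m * x ≤ x := by nlinarith
    refine lt_of_lt_of_le ham ?_
    by_contra hcon
    rw [not_le, div_lt_iff₀ hx0] at hcon
    have hb : G x - G (m * x) ≤ ∫ t in (m * x)..x, (m * x - t) / x ^ 2 := by
      rw [G_sub hmx hmx']
      refine intervalIntegral.integral_mono_on hmx' ((intervalIntegrable_iff_integrableOn_Ioc_of_le hmx').2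
        (integrableOn_G hmx)) (by apply Continuous.intervalIntegrable; fun_prop) fun t ht => ?_
      have h1 : phi t ≤ m * x - t := by
        have := Chebyshev.psi_mono ht.2
        rw [phi]; linarith
      have h2 : m * x - t ≤ 0 := by linarith [ht.1]
      calc phi t / t ^ 2 ≤ (m * x - t) / t ^ 2 := by gcongr
        _ ≤ (m * x - t) / x ^ 2 := by
          have ht2 : t ^ 2 ≤ x ^ 2 := by nlinarith [ht.1, ht.2]
          rw [div_le_div_iff₀ (by nlinarith [ht.1]) (by positivity)]
          exact mul_le_mul_of_nonpos_left ht2 h2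
    have hv : (∫ t in (m * x)..x, (m * x - t) / x ^ 2) = -((1 - m) ^ 2 / 2) := by
      rw [intervalIntegral.integral_div, intervalIntegral.integral_sub intervalIntegrable_const
        (Continuous.intervalIntegrable continuous_id' _ _), intervalIntegral.integral_const, integral_id,
        smul_eq_mul]
      field_simp
      ring
    linarith
  · intro b hb
    set m := (1 + b) / 2 with hm
    have hm1 : 1 < m := by linarith
    have hd : Tendsto (fun x => G (m * x) - G x) atTop (𝓝 0) := by
      simpa using (hl.comp (tendsto_id.const_mul_atTop (by linarith : 0 < m))).sub hl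
    filter_upwards [hd.eventually (eventually_lt_nhds (by
      have : 0 < m - 1 := by linarith
      positivity : (0:ℝ) < (m - 1) ^ 2 / (2 * m ^ 2))), eventually_ge_atTop 1] with x hx hx1
    refine lt_of_le_of_lt ?_ (by linarith : m < b)
    by_contra hcon
    rw [not_le, lt_div_iff₀ (by linarith)] at hcon
    have hmx : x ≤ m * x := by nlinarith
    have hb : (∫ t in x..(m * x), (m * x - t) / (m * x) ^ 2) ≤ G (m * x) - G x := by
      rw [G_sub hx1 hmx]
      refine intervalIntegral.integral_mono_on hmx (by apply Continuous.intervalIntegrable; fun_prop)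
        ((intervalIntegrable_iff_integrableOn_Ioc_of_le hmx).2 (integrableOn_G hx1)) fun t ht => ?_
      have h1 : m * x - t ≤ phi t := by
        have := Chebyshev.psi_mono ht.1
        rw [phi]; linarith
      have h2 : 0 ≤ m * x - t := by linarith [ht.2]
      have ht0 : 0 < t := by linarith [ht.1]
      calc (m * x - t) / (m * x) ^ 2 ≤ (m * x - t) / t ^ 2 := by gcongr; exact ht.2
        _ ≤ phi t / t ^ 2 := by gcongr
    have hv : (∫ t in x..(m * x), (m * x - t) / (m * x) ^ 2) = (m - 1) ^ 2 / (2 * m ^ 2) := by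
      rw [intervalIntegral.integral_div, intervalIntegral.integral_sub intervalIntegrable_const
        (Continuous.intervalIntegrable continuous_id' _ _), intervalIntegral.integral_const, integral_id,
        smul_eq_mul]
      field_simp
      ring
    linarith

end Vale.Agent.P031.PNT
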