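import Mathlib

/-!
Newman's analytic theorem in multiplicative variables, proved with rectangles.
-/

open Complex Set Filter Topology MeasureTheory intervalIntegral
open scoped Real Interval

noncomputable section

namespace Vale.Agent.P031.PNT

/-- boundary integral over the rectangle `[a,b] × [-R,R]` -/
def rbd (f : ℂ → ℂ) (a b R : ℝ) : ℂ :=
  (∫ x : ℝ in a..b, f (x + (-R : ℝ) * I)) - (∫ x : ℝ in a..b, f (x + R * I)) +
    I • (∫ y : ℝ in (-R)..R, f (b + y * I)) - I • ∫ y : ℝ in (-R)..R, f (a + y * I)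

lemma rbd_eq_zero {f : ℂ → ℂ} {a b R : ℝ} (hab : a ≤ b) (hR : 0 ≤ R)
    (hf : DifferentiableOn ℂ f (Icc a b ×ℂ Icc (-R) R)) : rbd f a b R = 0 := by
  have h := Complex.integral_boundary_rect_eq_zero_of_differentiableOn f ⟨a, -R⟩ ⟨b, R⟩
    (by simpa [uIcc_of_le hab, uIcc_of_le (neg_le_self hR)] using hf)
  simpa [rbd] using h

/-- kernel -/
def ker (R T : ℝ) (z : ℂ) : ℂ := (1 + (z / R) ^ 2) * (T : ℂ) ^ z

/-- truncated transform -/
def trunc (φ : ℝ → ℝ) (T : ℝ) (z : ℂ) : ℂ :=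
  ∫ t in Ioc 1 T, (φ t : ℂ) * (t : ℂ) ^ (-(2 : ℂ) - z)

lemma norm_term_le {φ : ℝ → ℝ} {B t : ℝ} (hB : |φ t| ≤ B * t) (ht : 0 < t) (z : ℂ) :
    ‖(φ t : ℂ) * (t : ℂ) ^ (-(2 : ℂ) - z)‖ ≤ B * t ^ (-1 - z.re) := by
  rw [norm_mul, Complex.norm_real, Real.norm_eq_abs, norm_cpow_eq_rpow_re_of_pos ht]
  calc |φ t| * t ^ (-(2 : ℂ) - z).re ≤ B * t * t ^ (-(2 : ℂ) - z).re := by gcongr
    _ = B * t ^ (-1 - z.re) := by
      have e : (-(2 : ℂ) - z).re + 1 = -1 - z.re := by simp; ring
      rw [mul_assoc, mul_comm t, ← Real.rpow_add_one ht.ne', e]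

lemma measurable_term {φ : ℝ → ℝ} (hφ : Measurable φ) (z : ℂ) :
    Measurable fun t : ℝ => (φ t : ℂ) * (t : ℂ) ^ (-(2 : ℂ) - z) :=
  (Complex.measurable_ofReal.comp hφ).mul (Complex.measurable_ofReal.pow_const _)

lemma integrableOn_term_Ioc {φ : ℝ → ℝ} (hφ : Measurable φ) {B : ℝ}
    (hB : ∀ t, 1 < t → |φ t| ≤ B * t) (T : ℝ) (z : ℂ) :
    IntegrableOn (fun t => (φ t : ℂ) * (t : ℂ) ^ (-(2 : ℂ) - z)) (Ioc 1 T) := by
  rcases le_or_gt T 1 with h | h
  · rw [Ioc_eq_empty (not_lt.2 h)]; exact integrableOn_empty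
  have hd : IntegrableOn (fun t : ℝ => B * t ^ (-1 - z.re)) (Ioc 1 T) := by
    have : ContinuousOn (fun t : ℝ => B * t ^ (-1 - z.re)) (Icc 1 T) := fun t ht =>
      ((Real.continuousAt_rpow_const t _ (Or.inl (by linarith [ht.1] : t ≠ 0))).const_mul B
        ).continuousWithinAt
    exact this.integrableOn_Icc.mono_set Ioc_subset_Icc_self
  refine Integrable.mono' hd (measurable_term hφ z).aestronglyMeasurable ?_
  filter_upwards [ae_restrict_mem measurableSet_Ioc] with t ht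
  exact norm_term_le (hB t ht.1) (by linarith [ht.1]) z

lemma integrableOn_term_Ioi {φ : ℝ → ℝ} (hφ : Measurable φ) {B : ℝ}
    (hB : ∀ t, 1 < t → |φ t| ≤ B * t) {T : ℝ} (hT : 1 ≤ T) {z : ℂ} (hz : 0 < z.re) :
    IntegrableOn (fun t => (φ t : ℂ) * (t : ℂ) ^ (-(2 : ℂ) - z)) (Ioi T) := by
  refine Integrable.mono' ((integrableOn_Ioi_rpow_of_lt (by linarith : -1 - z.re < -1)
    (by linarith : (0 : ℝ) < T)).const_mul B) (measurable_term hφ z).aestronglyMeasurable ?_
  filter_upwards [ae_restrict_mem measurableSet_Ioi] with t ht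
  exact norm_term_le (hB t (lt_of_le_of_lt hT ht)) (by linarith [mem_Ioi.1 ht]) z

lemma norm_tail_le {φ : ℝ → ℝ} (hφ : Measurable φ) {B : ℝ}
    (hB : ∀ t, 1 < t → |φ t| ≤ B * t) {T : ℝ} (hT : 1 ≤ T) {z : ℂ} (hz : 0 < z.re) :
    ‖(∫ t in Ioi 1, (φ t : ℂ) * (t : ℂ) ^ (-(2 : ℂ) - z)) - trunc φ T z‖
      ≤ B * T ^ (-z.re) / z.re := by
  rw [trunc, ← Ioc_union_Ioi_eq_Ioi hT, setIntegral_union (Ioc_disjoint_Ioi le_rfl)
    measurableSet_Ioi (integrableOn_term_Ioc hφ hB T z) (integrableOn_term_Ioi hφ hB hT hz),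
    add_sub_cancel_left]
  calc ‖∫ t in Ioi T, (φ t : ℂ) * (t : ℂ) ^ (-(2 : ℂ) - z)‖
      ≤ ∫ t in Ioi T, B * t ^ (-1 - z.re) := by
        refine norm_integral_le_of_norm_le ((integrableOn_Ioi_rpow_of_lt (by linarith)
          (by linarith : (0 : ℝ) < T)).const_mul B) ?_
        filter_upwards [ae_restrict_mem measurableSet_Ioi] with t ht
        exact norm_term_le (hB t (lt_of_le_of_lt hT ht)) (by linarith [mem_Ioi.1 ht]) z
    _ = B * T ^ (-z.re) / z.re := by
      rw [MeasureTheory.integral_const_mul, integral_Ioi_rpow_of_lt (by linarith) (by linarith)]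
      have : -1 - z.re + 1 = -z.re := by ring
      rw [this]; field_simp

lemma norm_trunc_le {φ : ℝ → ℝ} (hφ : Measurable φ) {B : ℝ} (hB0 : 0 ≤ B)
    (hB : ∀ t, 1 < t → |φ t| ≤ B * t) {T : ℝ} (hT : 1 ≤ T) {z : ℂ} (hz : z.re < 0) :
    ‖trunc φ T z‖ ≤ B * T ^ (-z.re) / (-z.re) := by
  have hd : IntervalIntegrable (fun t : ℝ => B * t ^ (-1 - z.re)) volume 1 T :=
    (intervalIntegral.intervalIntegrable_rpow (Or.inr (by
      rw [uIcc_of_le hT]; intro h; linarith [h.1]))).const_mul B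
  calc ‖trunc φ T z‖ ≤ ∫ t in Ioc 1 T, B * t ^ (-1 - z.re) := by
        refine norm_integral_le_of_norm_le hd.1 ?_
        filter_upwards [ae_restrict_mem measurableSet_Ioc] with t ht
        exact norm_term_le (hB t ht.1) (by linarith [ht.1]) z
    _ = ∫ t in (1 : ℝ)..T, B * t ^ (-1 - z.re) := (intervalIntegral.integral_of_le hT).symm
    _ ≤ B * T ^ (-z.re) / (-z.re) := by
      rw [intervalIntegral.integral_const_mul, integral_rpow (Or.inr ⟨by linarith, by
        rw [uIcc_of_le hT]; intro h; linarith [h.1]⟩)]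
      have : -1 - z.re + 1 = -z.re := by ring
      rw [this, Real.one_rpow, ← mul_div_assoc]
      gcongr
      · linarith
      · linarith

lemma differentiable_trunc {φ : ℝ → ℝ} (hφ : Measurable φ) {B : ℝ}
    (hB : ∀ t, 1 < t → |φ t| ≤ B * t) (T : ℝ) : Differentiable ℂ (trunc φ T) := by
  intro z
  rcases le_or_gt T 1 with hT | hT
  · have : trunc φ T = fun _ => 0 := by
      funext w; rw [trunc, Ioc_eq_empty (not_lt.2 hT), setIntegral_empty]
    rw [this]; exact differentiableAt_const _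
  have h := hasDerivAt_integral_of_dominated_loc_of_deriv_le
    (μ := volume.restrict (Ioc (1 : ℝ) T))
    (F := fun w (t : ℝ) => (φ t : ℂ) * (t : ℂ) ^ (-(2 : ℂ) - w))
    (F' := fun w (t : ℝ) => (φ t : ℂ) * (t : ℂ) ^ (-(2 : ℂ) - w) * (-Complex.log t))
    (bound := fun _ => B * T ^ (|z.re| + 2) * T)
    (x₀ := z) (Metric.ball_mem_nhds z one_pos)
    (Eventually.of_forall fun w => (measurable_term hφ w).aestronglyMeasurable)
    (integrableOn_term_Ioc hφ hB T z)
    ((measurable_term hφ z).mul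
      (Complex.measurable_log.comp Complex.measurable_ofReal).neg).aestronglyMeasurable
    ?_ (integrable_const _) ?_
  · exact h.2.differentiableAt
  · filter_upwards [ae_restrict_mem measurableSet_Ioc] with t ht w hw
    have ht0 : 0 < t := by linarith [ht.1]
    have hB0 : 0 ≤ B := by
      have := (abs_nonneg _).trans (hB t ht.1)
      exact nonneg_of_mul_nonneg_left this ht0
    have hlog : ‖-Complex.log (t : ℂ)‖ ≤ T := by
      rw [norm_neg, ← Complex.ofReal_log ht0.le, Complex.norm_real, Real.norm_eq_abs,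
        abs_of_nonneg (Real.log_nonneg ht.1.le)]
      linarith [Real.log_le_sub_one_of_pos ht0, ht.2]
    have hw' : |w.re - z.re| ≤ 1 := by
      have := (abs_re_le_norm (w - z))
      rw [sub_re] at this
      rw [Metric.mem_ball, dist_eq_norm] at hw
      linarith
    rw [norm_mul]
    refine mul_le_mul ((norm_term_le (hB t ht.1) ht0 w).trans ?_) hlog (norm_nonneg _) (by positivity)
    gcongr
    calc t ^ (-1 - w.re) ≤ t ^ (|z.re| + 2) := by
          apply Real.rpow_le_rpow_of_exponent_le ht.1.le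
          have := neg_abs_le z.re
          have := (abs_le.1 hw').1
          linarith [abs_nonneg z.re]
      _ ≤ T ^ (|z.re| + 2) := Real.rpow_le_rpow ht0.le ht.2 (by positivity)
  · filter_upwards [ae_restrict_mem measurableSet_Ioc] with t ht w _
    have ht0 : (t : ℂ) ≠ 0 := by exact_mod_cast (by linarith [ht.1] : (0:ℝ) < t).ne'
    have h1 : HasDerivAt (fun w : ℂ => -(2 : ℂ) - w) (-1) w := (hasDerivAt_id w).const_sub _
    have h2 := (h1.const_cpow (c := (t : ℂ)) (Or.inl ht0)).const_mul (φ t : ℂ)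
    refine h2.congr_deriv ?_
    ring

lemma ker_zero {R T : ℝ} (hT : 0 < T) : ker R T 0 = 1 := by simp [ker]

lemma differentiable_ker {R T : ℝ} (hT : 0 < T) : Differentiable ℂ (ker R T) := by
  unfold ker
  exact ((differentiable_id.div_const _).pow 2 |>.const_add 1).mul
    (differentiable_id.const_cpow (Or.inl (by exact_mod_cast hT.ne')))

/-- bound for the kernel over `z` on horizontal edges -/
lemma norm_ker_div_horiz {R T x y : ℝ} (hR : 0 < R) (hT : 0 < T) (hx : |x| ≤ R) (hy : |y| = R) :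
    ‖ker R T (x + y * I) / (x + y * I)‖ ≤ 3 * |x| / R ^ 2 * T ^ x := by
  have hy2 : y ^ 2 = R ^ 2 := by rw [← sq_abs, hy]
  have hre : (x + y * I : ℂ).re = x := by simp
  have h1 : (1 + ((x + y * I : ℂ) / R) ^ 2) = (x : ℂ) * (x + 2 * y * I) / R ^ 2 := by
    have hR' : (R : ℂ) ≠ 0 := by exact_mod_cast hR.ne'
    have hy2' : (y : ℂ) ^ 2 = (R : ℂ) ^ 2 := by exact_mod_cast hy2
    field_simp
    linear_combination (y : ℂ) ^ 2 * I_sq - hy2'
  have h2 : ‖(x : ℂ) + 2 * y * I‖ ≤ 3 * R := by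
    refine (norm_le_abs_re_add_abs_im _).trans ?_
    simp [abs_mul, hy]
    linarith
  have h3 : R ≤ ‖(x + y * I : ℂ)‖ := by
    have := abs_im_le_norm (x + y * I : ℂ)
    simp [hy] at this
    exact this
  rw [ker, norm_div, norm_mul, h1, norm_div, norm_mul, norm_cpow_eq_rpow_re_of_pos hT, hre]
  simp only [Complex.norm_real, Real.norm_eq_abs, norm_pow, abs_of_pos hR]
  calc |x| * ‖(x : ℂ) + 2 * y * I‖ / R ^ 2 * T ^ x / ‖(x + y * I : ℂ)‖
      ≤ |x| * (3 * R) / R ^ 2 * T ^ x / R := by gcongr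
    _ = 3 * |x| / R ^ 2 * T ^ x := by field_simp

/-- bound for the kernel over `z` on vertical edges -/
lemma norm_ker_div_vert {R T x y : ℝ} (hR : 0 < R) (hT : 0 < T) (hx : |x| ≤ R) (hx0 : x ≠ 0)
    (hy : |y| ≤ R) : ‖ker R T (x + y * I) / (x + y * I)‖ ≤ 3 / |x| * T ^ x := by
  have hre : (x + y * I : ℂ).re = x := by simp
  have h3 : |x| ≤ ‖(x + y * I : ℂ)‖ := by
    have := abs_re_le_norm (x + y * I : ℂ)
    rwa [hre] at this
  have hs : ‖(x + y * I : ℂ)‖ ^ 2 ≤ 2 * R ^ 2 := by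
    rw [Complex.sq_norm, Complex.normSq_add_mul_I]
    nlinarith [sq_le_sq' (abs_le.1 hx).1 (abs_le.1 hx).2, sq_le_sq' (abs_le.1 hy).1 (abs_le.1 hy).2]
  have h1 : ‖1 + ((x + y * I : ℂ) / R) ^ 2‖ ≤ 3 := by
    refine (norm_add_le _ _).trans ?_
    rw [norm_one, norm_pow, norm_div, Complex.norm_real, Real.norm_eq_abs, abs_of_pos hR,
      div_pow]
    have : ‖(x + y * I : ℂ)‖ ^ 2 / R ^ 2 ≤ 2 := by
      rw [div_le_iff₀ (by positivity)]; exact hs
    linarith
  rw [ker, norm_div, norm_mul, norm_cpow_eq_rpow_re_of_pos hT, hre]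
  have hxp : 0 < |x| := abs_pos.2 hx0
  calc ‖1 + ((x + y * I : ℂ) / R) ^ 2‖ * T ^ x / ‖(x + y * I : ℂ)‖ ≤ 3 * T ^ x / |x| := by gcongr
    _ = 3 / |x| * T ^ x := by ring

/-- `|x| T^x ≤ 1 / log T` for `x ≤ 0` -/
lemma abs_mul_rpow_le {T x : ℝ} (hT : 1 < T) (hx : x ≤ 0) : |x| * T ^ x ≤ 1 / Real.log T := by
  have hL : 0 < Real.log T := Real.log_pos hT
  rw [le_div_iff₀ hL, Real.rpow_def_of_pos (by linarith), abs_of_nonpos hx]
  have h := Real.add_one_le_exp (-(Real.log T * x))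
  have e : Real.exp (-(Real.log T * x)) * Real.exp (Real.log T * x) = 1 := by
    rw [← Real.exp_add]; simp
  nlinarith [Real.exp_pos (Real.log T * x)]

lemma one_le_norm_rbd_inv {δ R : ℝ} (hδ : 0 < δ) (hR : 0 < R) :
    1 ≤ ‖rbd (fun z => z⁻¹) (-δ) R R‖ := by
  have hne : ∀ x y : ℝ, (x ≠ 0 ∨ y ≠ 0) → (x + y * I : ℂ) ≠ 0 := by
    intro x y h e
    rcases h with h | h
    · exact h (by simpa using congrArg Complex.re e)
    · exact h (by simpa using congrArg Complex.im e)
  have hhor : ∀ y : ℝ, y ≠ 0 →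
      IntervalIntegrable (fun x : ℝ => ((x + y * I : ℂ))⁻¹) volume (-δ) R := fun y hy =>
    ((by fun_prop : Continuous fun x : ℝ => (x + y * I : ℂ)).inv₀
      fun x => hne x y (Or.inr hy)).intervalIntegrable _ _
  have hver : ∀ x : ℝ, x ≠ 0 →
      IntervalIntegrable (fun y : ℝ => ((x + y * I : ℂ))⁻¹) volume (-R) R := fun x hx =>
    ((by fun_prop : Continuous fun y : ℝ => (x + y * I : ℂ)).inv₀
      fun y => hne x y (Or.inl hx)).intervalIntegrable _ _
  refine le_trans ?_ ((le_abs_self _).trans (abs_im_le_norm _))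
  simp only [rbd, smul_eq_mul, sub_im, add_im, Complex.I_mul_im]
  have e1 := Complex.imCLM.intervalIntegral_comp_comm (hhor (-R) (by linarith))
  have e2 := Complex.imCLM.intervalIntegral_comp_comm (hhor R hR.ne')
  have e3 := Complex.reCLM.intervalIntegral_comp_comm (hver R hR.ne')
  have e4 := Complex.reCLM.intervalIntegral_comp_comm (hver (-δ) (by linarith))
  simp only [Complex.imCLM_apply, Complex.reCLM_apply] at e1 e2 e3 e4
  rw [← e1, ← e2, ← e3, ← e4]
  have a1 : 0 ≤ ∫ x : ℝ in (-δ)..R, ((x + (-R : ℝ) * I : ℂ))⁻¹.im :=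
    intervalIntegral.integral_nonneg (by linarith) fun x _ => by
      simp [Complex.inv_im]; exact div_nonneg hR.le (Complex.normSq_nonneg _)
  have a2 : (∫ x : ℝ in (-δ)..R, ((x + R * I : ℂ))⁻¹.im) ≤ 0 := by
    have : 0 ≤ ∫ x : ℝ in (-δ)..R, -((x + R * I : ℂ))⁻¹.im :=
      intervalIntegral.integral_nonneg (by linarith) fun x _ => by
        simp [Complex.inv_im, Complex.normSq_add_mul_I]
        exact div_nonpos_of_nonpos_of_nonneg (by linarith) (by positivity)
    rw [intervalIntegral.integral_neg] at this; linarith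
  have a4 : (∫ y : ℝ in (-R)..R, ((((-δ : ℝ) : ℂ) + y * I))⁻¹.re) ≤ 0 := by
    have : 0 ≤ ∫ y : ℝ in (-R)..R, -((((-δ : ℝ) : ℂ) + y * I))⁻¹.re :=
      intervalIntegral.integral_nonneg (by linarith) fun x _ => by
        rw [Complex.inv_re, Complex.normSq_add_mul_I]
        simp
        exact div_nonpos_of_nonpos_of_nonneg (by linarith) (by positivity)
    rw [intervalIntegral.integral_neg] at this; linarith
  have a3 : 1 ≤ ∫ y : ℝ in (-R)..R, ((R + y * I : ℂ))⁻¹.re := by
    have hc : IntervalIntegrable (fun y : ℝ => ((R + y * I : ℂ))⁻¹.re) volume (-R) R :=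
      (Complex.continuous_re.comp ((by fun_prop : Continuous fun y : ℝ => (R + y * I : ℂ)).inv₀
        fun y => hne R y (Or.inl hR.ne'))).intervalIntegrable _ _
    have := intervalIntegral.integral_mono_on (by linarith) intervalIntegrable_const hc
      (f := fun _ => 1 / (2 * R)) (fun y hy => by
        have hre : (R + y * I : ℂ).re = R := by simp
        rw [Complex.inv_re, Complex.normSq_add_mul_I, hre, div_le_div_iff₀ (by positivity) (by positivity)]
        nlinarith [sq_le_sq' hy.1 hy.2])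
    rw [intervalIntegral.integral_const, smul_eq_mul] at this
    refine le_trans (le_of_eq ?_) this
    field_simp; ring
  linarith

lemma rbd_cauchy {F : ℂ → ℂ} {δ R : ℝ} (hδ : 0 < δ) (hR : 0 < R)
    (hF : DifferentiableOn ℂ F (Icc (-δ) R ×ℂ Icc (-R) R)) :
    rbd (fun z => F z / z) (-δ) R R = F 0 * rbd (fun z => z⁻¹) (-δ) R R := by
  set S : Set ℂ := Icc (-δ) R ×ℂ Icc (-R) R with hS
  have hn : S ∈ 𝓝 (0 : ℂ) := by
    rw [mem_interior_iff_mem_nhds.symm, hS, interior_reProdIm, interior_Icc, interior_Icc]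
    simp [Complex.mem_reProdIm, hδ, hR]
  have hd : DifferentiableOn ℂ (dslope F 0) S := (Complex.differentiableOn_dslope hn).2 hF
  have h0 := rbd_eq_zero (by linarith) hR.le hd
  have hne : ∀ x y : ℝ, (x ≠ 0 ∨ y ≠ 0) → (x + y * I : ℂ) ≠ 0 := by
    intro x y h e
    rcases h with h | h
    · exact h (by simpa using congrArg Complex.re e)
    · exact h (by simpa using congrArg Complex.im e)
  have hmem : ∀ x ∈ Icc (-δ) R, ∀ y ∈ Icc (-R) R, (x + y * I : ℂ) ∈ S := by
    intro x hx y hy; rw [hS, Complex.mem_reProdIm]; simpa using ⟨hx, hy⟩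
  have edge : ∀ (p : ℝ → ℂ) (a b : ℝ), Continuous p → a ≤ b →
      (∀ t ∈ Icc a b, p t ∈ S ∧ p t ≠ 0) →
      ∫ t in a..b, dslope F 0 (p t) = (∫ t in a..b, F (p t) / p t) - F 0 * ∫ t in a..b, (p t)⁻¹ := by
    intro p a b hp hab hpS
    have c1 : ContinuousOn (fun t => F (p t) / p t) (uIcc a b) := by
      rw [uIcc_of_le hab]
      exact (hF.continuousOn.comp hp.continuousOn fun t ht => (hpS t ht).1).div hp.continuousOn
        fun t ht => (hpS t ht).2
    have c2 : ContinuousOn (fun t => (p t)⁻¹) (uIcc a b) := by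
      rw [uIcc_of_le hab]; exact hp.continuousOn.inv₀ fun t ht => (hpS t ht).2
    rw [← intervalIntegral.integral_const_mul, ← intervalIntegral.integral_sub c1.intervalIntegrable
      (c2.intervalIntegrable.const_mul _)]
    refine intervalIntegral.integral_congr fun t ht => ?_
    rw [uIcc_of_le hab] at ht
    rw [dslope_of_ne _ (hpS t ht).2, slope_def_field]
    field_simp [(hpS t ht).2]
    ring
  have hmδ : -δ ∈ Icc (-δ) R := ⟨le_rfl, by linarith⟩
  have hmR : R ∈ Icc (-δ) R := ⟨by linarith, le_rfl⟩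
  have hmR' : R ∈ Icc (-R) R := ⟨by linarith, le_rfl⟩
  have hmn : -R ∈ Icc (-R) R := ⟨le_rfl, by linarith⟩
  unfold rbd at h0 ⊢
  rw [edge (fun x => x + (-R : ℝ) * I) _ _ (by fun_prop) (by linarith)
      (fun x hx => ⟨hmem x hx _ hmn, hne _ _ (Or.inr (by linarith))⟩),
    edge (fun x => x + R * I) _ _ (by fun_prop) (by linarith)
      (fun x hx => ⟨hmem x hx _ hmR', hne _ _ (Or.inr hR.ne')⟩),
    edge (fun y => R + y * I) _ _ (by fun_prop) (by linarith)
      (fun y hy => ⟨hmem _ hmR y hy, hne _ _ (Or.inl hR.ne')⟩),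
    edge (fun y => ((-δ : ℝ) : ℂ) + y * I) _ _ (by fun_prop) (by linarith)
      (fun y hy => ⟨hmem _ hmδ y hy, hne _ _ (Or.inl (by linarith))⟩)] at h0
  simp only [smul_eq_mul] at h0 ⊢
  linear_combination h0

/-- Newman's analytic theorem. -/
theorem newman {φ : ℝ → ℝ} (hφ : Measurable φ) {B : ℝ} (hB0 : 0 ≤ B)
    (hB : ∀ t, 1 < t → |φ t| ≤ B * t) {h : ℂ → ℂ} {U : Set ℂ} (hU : IsOpen U)
    (hsub : {z : ℂ | 0 ≤ z.re} ⊆ U) (hh : DifferentiableOn ℂ h U)
    (heq : ∀ z : ℂ, 0 < z.re → ∫ t in Ioi 1, (φ t : ℂ) * (t : ℂ) ^ (-(2 : ℂ) - z) = h z) :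
    Tendsto (fun T => trunc φ T 0) atTop (𝓝 (h 0)) := by
  rw [Metric.tendsto_nhds]
  intro ε hε
  obtain ⟨R, hR1, hRB⟩ : ∃ R : ℝ, 1 ≤ R ∧ 24 * B / R < ε / 2 := by
    refine ⟨max 1 (48 * B / ε + 1), le_max_left _ _, ?_⟩
    have hlt : 48 * B / ε < max 1 (48 * B / ε + 1) :=
      lt_of_lt_of_le (by linarith) (le_max_right _ _)
    rw [div_lt_iff₀ hε] at hlt
    rw [div_lt_iff₀ (lt_of_lt_of_le one_pos (le_max_left _ _))]
    linarith
  have hR : 0 < R := by linarith
  have hK : IsCompact (Icc (0 : ℝ) R ×ℂ Icc (-R) R) := isCompact_Icc.reProdIm isCompact_Icc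
  obtain ⟨δ₀, hδ₀, hδU⟩ := hK.exists_cthickening_subset_open hU (fun z hz => hsub hz.1.1)
  obtain ⟨δ, hδ, hδ1, hδ2⟩ : ∃ δ, 0 < δ ∧ δ ≤ δ₀ ∧ δ ≤ R :=
    ⟨min δ₀ R, lt_min hδ₀ hR, min_le_left _ _, min_le_right _ _⟩
  set S : Set ℂ := Icc (-δ) R ×ℂ Icc (-R) R with hS
  have hSU : S ⊆ U := by
    intro z hz
    apply hδU
    refine Metric.mem_cthickening_of_dist_le z (⟨max z.re 0, z.im⟩ : ℂ) δ₀ _
      ⟨⟨le_max_right _ _, max_le hz.1.2 hR.le⟩, hz.2⟩ ?_
    rw [Complex.dist_eq]
    refine le_trans (norm_le_abs_re_add_abs_im _) ?_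
    have h1 : -δ ≤ z.re := hz.1.1
    simp only [sub_re, sub_im, sub_self, abs_zero, add_zero]
    rw [abs_le]
    constructor <;> rcases max_cases z.re 0 with ⟨e, _⟩ | ⟨e, _⟩ <;> rw [e] <;> linarith
  have hScpt : IsCompact S := isCompact_Icc.reProdIm isCompact_Icc
  obtain ⟨M, hM0, hM⟩ : ∃ M, 0 ≤ M ∧ ∀ z ∈ S, ‖h z‖ ≤ M := by
    obtain ⟨M, hM⟩ := hScpt.exists_bound_of_continuousOn (hh.mono hSU).continuousOn
    exact ⟨max M 0, le_max_right _ _, fun z hz => (hM z hz).trans (le_max_left _ _)⟩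
  have hlim : Tendsto (fun T : ℝ => 24 * B / R + 6 * M / Real.log T + 6 * M * R / δ * T ^ (-δ))
      atTop (𝓝 (24 * B / R)) := by
    have a := (tendsto_const_nhds (x := 6 * M)).div_atTop Real.tendsto_log_atTop
    have b := (tendsto_rpow_neg_atTop hδ).const_mul (6 * M * R / δ)
    simpa using (tendsto_const_nhds (x := 24 * B / R)).add a |>.add b
  filter_upwards [eventually_gt_atTop 1, hlim.eventually (eventually_lt_nhds (by linarith : 24 * B / R < ε))]
    with T hT hTε
  rw [dist_comm, Complex.dist_eq]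
  refine lt_of_le_of_lt ?_ hTε
  have hT0 : 0 < T := by linarith
  set g : ℂ → ℂ := trunc φ T with hg
  have hgd : Differentiable ℂ g := differentiable_trunc hφ hB T
  have hkd : Differentiable ℂ (ker R T) := differentiable_ker hT0
  set k : ℂ → ℂ := fun z => ker R T z / z with hk
  -- Cauchy for (h - g) * ker
  have hc := rbd_cauchy hδ hR (((hh.mono hSU).sub hgd.differentiableOn).mul hkd.differentiableOn)
  simp only [Pi.mul_apply, Pi.sub_apply, ker_zero hT0, mul_one] at hc
  have hI := one_le_norm_rbd_inv hδ hR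
  have hne : ∀ x y : ℝ, (x ≠ 0 ∨ y ≠ 0) → (x + y * I : ℂ) ≠ 0 := by
    intro x y h e
    rcases h with h | h
    · exact h (by simpa using congrArg Complex.re e)
    · exact h (by simpa using congrArg Complex.im e)
  have hmem : ∀ x ∈ Icc (-δ) R, ∀ y ∈ Icc (-R) R, (x + y * I : ℂ) ∈ S := by
    intro x hx y hy; rw [hS, Complex.mem_reProdIm]; simpa using ⟨hx, hy⟩
  -- deformation for `g * k` to the left
  have hdef : rbd (fun z => g z * k z) (-R) (-δ) R = 0 := by
    refine rbd_eq_zero (by linarith) hR.le ?_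
    intro z hz
    have hz0 : z ≠ 0 := by
      intro e; have := hz.1.2; rw [e, zero_re] at this; linarith
    exact ((hgd z).mul ((hkd z).div differentiableAt_id hz0)).differentiableWithinAt
  -- integrability
  have igh : ∀ y : ℝ, y ≠ 0 → ∀ a b, IntervalIntegrable (fun x : ℝ => g (x + y * I) * k (x + y * I)) volume a b := by
    intro y hy a b
    refine (Continuous.mul (hgd.continuous.comp (by fun_prop)) ?_).intervalIntegrable _ _
    exact (hkd.continuous.comp (by fun_prop)).div (by fun_prop) fun x => hne x y (Or.inr hy)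
  have igv : ∀ x : ℝ, x ≠ 0 → ∀ a b, IntervalIntegrable (fun y : ℝ => g (x + y * I) * k (x + y * I)) volume a b := by
    intro x hx a b
    refine (Continuous.mul (hgd.continuous.comp (by fun_prop)) ?_).intervalIntegrable _ _
    exact (hkd.continuous.comp (by fun_prop)).div (by fun_prop) fun y => hne x y (Or.inl hx)
  have ihh : ∀ y : ℝ, y ≠ 0 → y ∈ Icc (-R) R → ∀ a b, a ∈ Icc (-δ) R → b ∈ Icc (-δ) R →
      IntervalIntegrable (fun x : ℝ => h (x + y * I) * k (x + y * I)) volume a b := by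
    intro y hy hy' a b ha hb
    refine ContinuousOn.intervalIntegrable (ContinuousOn.mul ((hh.mono hSU).continuousOn.comp
      (by fun_prop) fun x hx => hmem x (Set.uIcc_subset_Icc ha hb hx) y hy') ?_)
    exact ((hkd.continuous.comp (by fun_prop)).div (by fun_prop) fun x => hne x y (Or.inr hy)).continuousOn
  have ihv : ∀ x : ℝ, x ≠ 0 → x ∈ Icc (-δ) R →
      IntervalIntegrable (fun y : ℝ => h (x + y * I) * k (x + y * I)) volume (-R) R := by
    intro x hx hx'
    refine ContinuousOn.intervalIntegrable (ContinuousOn.mul ((hh.mono hSU).continuousOn.comp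
      (by fun_prop) fun y hy => hmem x hx' y (by rwa [uIcc_of_le (by linarith : -R ≤ R)] at hy)) ?_)
    exact ((hkd.continuous.comp (by fun_prop)).div (by fun_prop) fun y => hne x y (Or.inl hx)).continuousOn
  -- the pieces
  have m0 : (0:ℝ) ∈ Icc (-δ) R := ⟨by linarith, hR.le⟩
  have mδ : -δ ∈ Icc (-δ) R := ⟨le_rfl, by linarith⟩
  have mR : R ∈ Icc (-δ) R := ⟨by linarith, le_rfl⟩
  have horiz : ∀ y : ℝ, |y| = R →
      ‖∫ x : ℝ in (0:ℝ)..R, (h (x + y * I) - g (x + y * I)) * k (x + y * I)‖ ≤ 3 * B / R ∧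
      ‖∫ x : ℝ in (-R)..0, g (x + y * I) * k (x + y * I)‖ ≤ 3 * B / R ∧
      ‖∫ x : ℝ in (-δ)..0, h (x + y * I) * k (x + y * I)‖ ≤ 3 * M / Real.log T := by
    intro y hy
    refine ⟨?_, ?_, ?_⟩
    · refine (intervalIntegral.norm_integral_le_of_norm_le_const (C := 3 * B / R ^ 2) ?_).trans ?_
      · intro x hx
        rw [uIoc_of_le hR.le] at hx
        have hre : (x + y * I : ℂ).re = x := by simp
        have h1 := norm_tail_le hφ hB hT.le (z := x + y * I) (by rw [hre]; exact hx.1)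
        rw [heq _ (by rw [hre]; exact hx.1), hre] at h1
        rw [norm_mul]
        refine (mul_le_mul h1 (norm_ker_div_horiz hR hT0 (by rw [abs_of_pos hx.1]; exact hx.2) hy)
          (norm_nonneg _) (by positivity [hx.1])).trans_eq ?_
        rw [abs_of_pos hx.1, Real.rpow_neg hT0.le]
        have := hx.1
        field_simp
      · rw [sub_zero, abs_of_pos hR]; apply le_of_eq; field_simp
    · refine (intervalIntegral.norm_integral_le_of_norm_le_const (C := 3 * B / R ^ 2) ?_).trans ?_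
      · intro x hx
        rw [uIoc_of_le (by linarith : -R ≤ 0)] at hx
        have hre : (x + y * I : ℂ).re = x := by simp
        rcases eq_or_lt_of_le hx.2 with rfl | hx0
        · rw [norm_mul]
          have := norm_ker_div_horiz hR hT0 (x := 0) (by simpa using hR.le) hy
          have hk0 : k (((0 : ℝ) : ℂ) + y * I) = 0 := norm_le_zero_iff.1 (by simpa [hk] using this)
          rw [hk0, norm_zero, mul_zero]
          positivity
        have h1 := norm_trunc_le hφ hB0 hB hT.le (z := x + y * I) (by rw [hre]; exact hx0)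
        rw [hre] at h1
        rw [norm_mul]
        refine (mul_le_mul h1 (norm_ker_div_horiz hR hT0 (by rw [abs_of_neg hx0]; linarith [hx.1]) hy)
          (norm_nonneg _) ((norm_nonneg _).trans h1)).trans_eq ?_
        rw [abs_of_neg hx0, Real.rpow_neg hT0.le]
        have := hx0.ne
        field_simp
      · rw [zero_sub, neg_neg, abs_of_pos hR]; apply le_of_eq; field_simp
    · refine (intervalIntegral.norm_integral_le_of_norm_le_const (C := 3 * M / Real.log T / R ^ 2) ?_).trans ?_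
      · intro x hx
        rw [uIoc_of_le (by linarith : -δ ≤ 0)] at hx
        have hx' : x ∈ Icc (-δ) R := ⟨hx.1.le, by linarith [hx.2]⟩
        have hy' : y ∈ Icc (-R) R := abs_le.1 hy.le
        rw [norm_mul]
        refine (mul_le_mul (hM _ (hmem x hx' y hy')) (norm_ker_div_horiz hR hT0
          (by rw [abs_of_nonpos hx.2]; linarith [hx.1]) hy) (norm_nonneg _) hM0).trans ?_
        calc M * (3 * |x| / R ^ 2 * T ^ x) = 3 * M / R ^ 2 * (|x| * T ^ x) := by ring
          _ ≤ 3 * M / R ^ 2 * (1 / Real.log T) := by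
            gcongr; exact abs_mul_rpow_le hT hx.2
          _ = _ := by ring
      · rw [zero_sub, neg_neg, abs_of_pos hδ]
        have hR2 : δ / R ^ 2 ≤ 1 := by rw [div_le_one (by positivity)]; nlinarith
        have hL : 0 < Real.log T := Real.log_pos hT
        calc 3 * M / Real.log T / R ^ 2 * δ = 3 * M / Real.log T * (δ / R ^ 2) := by ring
          _ ≤ 3 * M / Real.log T * 1 := by gcongr
          _ = _ := mul_one _
  have vR : ‖∫ y : ℝ in (-R)..R, (h (R + y * I) - g (R + y * I)) * k (R + y * I)‖ ≤ 6 * B / R := by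
    refine (intervalIntegral.norm_integral_le_of_norm_le_const (C := 3 * B / R ^ 2) ?_).trans ?_
    · intro y hy
      rw [uIoc_of_le (by linarith : -R ≤ R)] at hy
      have hre : (R + y * I : ℂ).re = R := by simp
      have h1 := norm_tail_le hφ hB hT.le (z := R + y * I) (by rw [hre]; exact hR)
      rw [heq _ (by rw [hre]; exact hR), hre] at h1
      rw [norm_mul]
      refine (mul_le_mul h1 (norm_ker_div_vert hR hT0 (by rw [abs_of_pos hR]) hR.ne'
        (abs_le.2 ⟨hy.1.le, hy.2⟩)) (norm_nonneg _) (by positivity)).trans_eq ?_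
      rw [abs_of_pos hR, Real.rpow_neg hT0.le]
      field_simp
    · rw [sub_neg_eq_add, abs_of_pos (by linarith)]; apply le_of_eq; field_simp; ring
  have vL : ‖∫ y : ℝ in (-R)..R, g ((-R : ℝ) + y * I) * k ((-R : ℝ) + y * I)‖ ≤ 6 * B / R := by
    refine (intervalIntegral.norm_integral_le_of_norm_le_const (C := 3 * B / R ^ 2) ?_).trans ?_
    · intro y hy
      rw [uIoc_of_le (by linarith : -R ≤ R)] at hy
      have hre : (((-R : ℝ) : ℂ) + y * I).re = -R := by simp
      have h1 := norm_trunc_le hφ hB0 hB hT.le (z := ((-R : ℝ) : ℂ) + y * I) (by rw [hre]; linarith)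
      rw [hre] at h1
      rw [norm_mul]
      refine (mul_le_mul h1 (norm_ker_div_vert hR hT0 (by rw [abs_neg, abs_of_pos hR]) (by linarith)
        (abs_le.2 ⟨hy.1.le, hy.2⟩)) (norm_nonneg _) ((norm_nonneg _).trans h1)).trans_eq ?_
      rw [abs_neg, abs_of_pos hR, neg_neg, Real.rpow_neg hT0.le]
      field_simp
    · rw [sub_neg_eq_add, abs_of_pos (by linarith)]; apply le_of_eq; field_simp; ring
  have vh : ‖∫ y : ℝ in (-R)..R, h ((-δ : ℝ) + y * I) * k ((-δ : ℝ) + y * I)‖ ≤ 6 * M * R / δ * T ^ (-δ) := by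
    refine (intervalIntegral.norm_integral_le_of_norm_le_const (C := M * (3 / δ * T ^ (-δ))) ?_).trans ?_
    · intro y hy
      rw [uIoc_of_le (by linarith : -R ≤ R)] at hy
      rw [norm_mul]
      refine (mul_le_mul (hM _ (hmem _ mδ y ⟨hy.1.le, hy.2⟩)) (norm_ker_div_vert hR hT0
        (by rw [abs_neg, abs_of_pos hδ]; exact hδ2) (by linarith) (abs_le.2 ⟨hy.1.le, hy.2⟩))
        (norm_nonneg _) hM0).trans_eq ?_
      rw [abs_neg, abs_of_pos hδ]
    · rw [sub_neg_eq_add, abs_of_pos (by linarith)]; apply le_of_eq; ring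
  obtain ⟨hb1, hb2, hb3⟩ := horiz (-R) (by rw [abs_neg, abs_of_pos hR])
  obtain ⟨ht1, ht2, ht3⟩ := horiz R (abs_of_pos hR)
  -- splitting
  set J : ℝ → ℂ := fun y => (∫ x : ℝ in (0:ℝ)..R, (h (x + y * I) - g (x + y * I)) * k (x + y * I))
    + (∫ x : ℝ in (-δ)..0, h (x + y * I) * k (x + y * I))
    - (∫ x : ℝ in (-R)..0, g (x + y * I) * k (x + y * I)) with hJ
  have hjs : ∀ y : ℝ, y ≠ 0 → y ∈ Icc (-R) R →
      (∫ x : ℝ in (-δ)..R, (h (x + y * I) - g (x + y * I)) * ker R T (x + y * I) / (x + y * I)) =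
        J y + ∫ x : ℝ in (-R)..(-δ), g (x + y * I) * k (x + y * I) := by
    intro y hy hy'
    have e : ∀ x : ℝ, (h (x + y * I) - g (x + y * I)) * ker R T (x + y * I) / (x + y * I)
        = h (x + y * I) * k (x + y * I) - g (x + y * I) * k (x + y * I) := fun x => by
      simp only [hk]; ring
    simp only [e, hJ]
    have e2 : ∀ x : ℝ, (h (x + y * I) - g (x + y * I)) * k (x + y * I)
        = h (x + y * I) * k (x + y * I) - g (x + y * I) * k (x + y * I) := fun x => by ring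
    simp only [e2]
    rw [intervalIntegral.integral_sub (ihh y hy hy' _ _ mδ mR) (igh y hy _ _),
      intervalIntegral.integral_sub (ihh y hy hy' _ _ m0 mR) (igh y hy _ _),
      ← intervalIntegral.integral_add_adjacent_intervals (ihh y hy hy' _ _ mδ m0) (ihh y hy hy' _ _ m0 mR),
      ← intervalIntegral.integral_add_adjacent_intervals (igh y hy (-δ) 0) (igh y hy 0 R),
      ← intervalIntegral.integral_add_adjacent_intervals (igh y hy (-R) (-δ)) (igh y hy (-δ) 0)]
    ring
  have key : rbd (fun z => (h z - g z) * ker R T z / z) (-δ) R R =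
      J (-R) - J R + I * (∫ y : ℝ in (-R)..R, (h (R + y * I) - g (R + y * I)) * k (R + y * I))
      - I * (∫ y : ℝ in (-R)..R, h ((-δ : ℝ) + y * I) * k ((-δ : ℝ) + y * I))
      + I * (∫ y : ℝ in (-R)..R, g ((-R : ℝ) + y * I) * k ((-R : ℝ) + y * I)) := by
    unfold rbd at hdef ⊢
    simp only [smul_eq_mul] at hdef ⊢
    rw [hjs (-R) (by linarith) ⟨le_rfl, by linarith⟩, hjs R hR.ne' ⟨by linarith, le_rfl⟩]
    have e3 : ∀ x : ℂ, (h x - g x) * ker R T x / x = h x * k x - g x * k x := fun x => by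
      simp only [hk]; ring
    have e4 : ∀ x : ℂ, (h x - g x) * k x = h x * k x - g x * k x := fun x => by ring
    simp only [e3, e4]
    rw [intervalIntegral.integral_sub (ihv R hR.ne' mR) (igv R hR.ne' _ _),
      intervalIntegral.integral_sub (ihv (-δ) (by linarith) mδ) (igv (-δ) (by linarith) _ _)]
    linear_combination hdef
  calc ‖h 0 - g 0‖ = ‖h 0 - g 0‖ * 1 := (mul_one _).symm
    _ ≤ ‖h 0 - g 0‖ * ‖rbd (fun z => z⁻¹) (-δ) R R‖ := by gcongr
    _ = ‖rbd (fun z => (h z - g z) * ker R T z / z) (-δ) R R‖ := by rw [← norm_mul, ← hc]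
    _ ≤ ‖J (-R)‖ + ‖J R‖ + ‖∫ y : ℝ in (-R)..R, (h (R + y * I) - g (R + y * I)) * k (R + y * I)‖
        + ‖∫ y : ℝ in (-R)..R, h ((-δ : ℝ) + y * I) * k ((-δ : ℝ) + y * I)‖
        + ‖∫ y : ℝ in (-R)..R, g ((-R : ℝ) + y * I) * k ((-R : ℝ) + y * I)‖ := by
      rw [key]
      refine (norm_add_le _ _).trans (add_le_add ((norm_sub_le _ _).trans (add_le_add
        ((norm_add_le _ _).trans (add_le_add (norm_sub_le _ _) (le_of_eq ?_))) (le_of_eq ?_)))
        (le_of_eq ?_)) <;> rw [norm_mul, Complex.norm_I, one_mul]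
    _ ≤ _ := by
      have j1 : ∀ y, ‖J y‖ ≤ ‖∫ x : ℝ in (0:ℝ)..R, (h (x + y * I) - g (x + y * I)) * k (x + y * I)‖
          + ‖∫ x : ℝ in (-δ)..0, h (x + y * I) * k (x + y * I)‖
          + ‖∫ x : ℝ in (-R)..0, g (x + y * I) * k (x + y * I)‖ := fun y => by
        simp only [hJ]
        exact (norm_sub_le _ _).trans (by gcongr; exact norm_add_le _ _)
      have j2 := j1 (-R)
      have j3 := j1 R
      have : (24:ℝ) * B / R = 4 * (3 * B / R) + 2 * (6 * B / R) := by ring
      have : (6:ℝ) * M / Real.log T = 2 * (3 * M / Real.log T) := by ring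
      linarith

end Vale.Agent.P031.PNT
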